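import Vale.Agent.P144L.Defs

/-!
Local forms of the blocks: only the chart at one point is used.
-/

namespace Vale.Agent.P144L

open Finset Matrix Vale.Agent.P144Z

/-- The chart of radius `r` at `z`. -/
def LipAt {M : ℕ} (I : Finset (Tor M)) (r : ℕ) (z : Tor M) : Prop :=
  ∃ (S : Set (ℤ × ℤ)) (ν : ℂ), ‖ν‖ = 1 ∧ Epi S ν (√2 / 2) ∧
    ∀ v : ℤ × ℤ, zd v 0 ≤ r → (z + prj M v ∈ I ↔ v ∈ S)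

/-- Rough boundaries that have charts away from the separated tips `Tp`. -/
structure ShapeL {M : ℕ} (I Tp : Finset (Tor M)) (N r : ℕ) : Prop extends Rgh I N r where
  sep : ∀ p ∈ Tp, ∀ p' ∈ Tp, p ≠ p' → r < tdist p p'
  far : ∀ y ρ, ρ ≤ r → (∀ p ∈ Tp, N * (ρ + 1) ≤ tdist y p) → LipAt I ρ y

/-- The local form of `ModL`. -/
def ModA : Prop := ∀ (M : ℕ) [NeZero M] (R : Reg M) (r : ℕ) (b : Tor M), LipAt R.In r b →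
  4 * r ≤ M → ∃ pr out ν, Md pr out ν ∧
    (∀ v, zd v 0 + 2 ≤ r → (∀ a, R.pr b v a ↔ pr v a) ∧ (R.out b v ↔ out v)) ∧
    ∀ v, zd v 0 + 2 ≤ r → Bq R.In (b + prj M (if R.fr then -v else v)) → Bp out v

/-- The local form of `CntL`. -/
def CntA : Prop := ∃ C : ℕ, ∀ (M : ℕ) [NeZero M] (I : Finset (Tor M)) (r : ℕ) (z : Tor M),
  LipAt I r z → 4 * r ≤ M → ∀ (ρ s m : ℕ) (Z : Finset (Tor M)), 1 ≤ s → ρ + 2 ≤ r →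
    (∀ y ∈ Z, Bq I y ∧ tdist y z ≤ ρ) → MuT Z s m → Z.card ≤ C * m * (ρ / s + 1)

/-- The local form of `SzL`. -/
def SzA : Prop := ∀ N : ℕ, ∃ Q C : ℕ, 1 ≤ Q ∧ ∀ (M : ℕ) [NeZero M] (R : Reg M) (B : Gauge M)
  (r : ℕ) (b : Tor M), IsSign B → LipAt R.In r b → Rgh R.In N r → 4 * r ≤ M →
  ∀ (s ρ m : ℕ) (Z : Finset (Tor M)),
    Bq R.In b → 1 ≤ s → s ≤ ρ → Q * (Q * ρ) ≤ r → Flat B b (2 * (Q * ρ)) →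
    (∀ y ∈ Z, Bq R.In y ∧ tdist y b ≤ ρ) → MuT Z s m → ∃ Ω : Tor M → ℝ,
      (∀ y ∈ Z, 0 ≤ Ω y ∧ HomSz (R.pw * B) y s (Q * ρ) (Ω y)) ∧ ∑ y ∈ Z, Ω y ≤ C * m

/-- The local form of `RkL`. -/
def RkB : Prop := ∀ N : ℕ, ∃ Q : ℕ, 1 ≤ Q ∧ ∀ η > (0 : ℝ), ∃ K s₀ : ℕ, 1 ≤ K ∧
  ∀ (M : ℕ) [NeZero M] (R : Reg M) (B : Gauge M) (r : ℕ) (b : Tor M), IsSign B →
  LipAt R.In r b → Rgh R.In N r → 4 * r ≤ M →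
  ∀ (s m : ℕ) (Z : Finset (Tor M)), Bq R.In b → s₀ ≤ s → Q * (Q * (K * s)) ≤ r →
    Flat B b (2 * (Q * (K * s))) → (∀ y ∈ Z, Bq R.In y ∧ tdist y b ≤ K * s) → MuT Z s m →
    ∃ Ω : Tor M → ℝ, (∀ y ∈ Z, 0 ≤ Ω y ∧ HomR (R.pw * B) y s (Q * (K * s)) (Ω y)) ∧
      ∑ y ∈ Z, Ω y ≤ η * m

/-- The local form of `SzG`. -/
def SzB : Prop := ∀ N : ℕ, ∃ Q C : ℕ, 1 ≤ Q ∧ ∀ (M : ℕ) [NeZero M] (R : Reg M) (B : Gauge M)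
  (r : ℕ), Rgh R.In N r → Str R.pw B r → 4 * r ≤ M →
  ∀ (z : Tor M) (s ρ m : ℕ) (Z : Finset (Tor M)), 8 ≤ s → s ≤ ρ → Q * ρ ≤ r →
    LipAt R.In (Q * ρ) z → (∀ y ∈ Z, Bq R.In y ∧ tdist y z ≤ 10 * ρ) → MuT Z s m →
    ∃ Ω : Tor M → ℝ, (∀ y ∈ Z, 0 ≤ Ω y ∧ InSz (R.pw * B) y s ρ (Ω y)) ∧ ∑ y ∈ Z, Ω y ≤ C * m

/-- The covering of the boundary near `z` at the intermediate scale `a ℓ`. -/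
def LevL : Prop := ∀ N : ℕ, ∃ c β : ℝ, 1 ≤ c ∧ 0 < β ∧ β ≤ 1 / 2 ∧ ∃ Q : ℕ, 1 ≤ Q ∧
  ∀ η > (0 : ℝ), ∃ a₀ : ℕ, ∀ a ≥ a₀, ∀ (M : ℕ) [NeZero M] (R : Reg M) (B : Gauge M) (r ℓ : ℕ),
    Rgh R.In N r → Str R.pw B r → 4 * r ≤ M → a ≤ ℓ → Q * (a * ℓ) ≤ r → ∀ z,
    LipAt R.In (Q * (a * ℓ)) z → ∃ Z : Finset (Tor M × ℝ × ℝ),
      (∀ y ∈ Z, NearB R.In 1 y.1 ∧ 0 < y.2.2 ∧ y.2.2 ≤ y.2.1 ∧ y.2.1 ≤ c * √(a / (a : ℝ) ^ β) ∧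
        RkA (R.pw * B) ℓ (a * ℓ) (11 * ℓ) y.2.1 y.2.2 y.1) ∧ ∑ y ∈ Z, y.2.1 * y.2.2 ≤ η * a ∧
      ∀ x, tdist x z ≤ a * ℓ → NearB R.In 1 x → ∃ y ∈ Z, tdist x y.1 ≤ ℓ

/-- The boundary estimates with tips. -/
def BdP : Prop := ∀ N : ℕ, ∃ Q : ℕ, 1 ≤ Q ∧ ∀ ε > (0 : ℝ), ∃ L₀ : ℕ, ∀ L ≥ L₀,
  ∀ (M : ℕ) [NeZero M] (R : Reg M) (Tp : Finset (Tor M)) (B : Gauge M) (r J : ℕ),
    ShapeL R.In Tp N r → Str R.pw B r → 4 * r ≤ M → 1 ≤ J → Q * sc L J ≤ r →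
      BndW (R.pw * B) L J ε

theorem LipAt.shift {M : ℕ} {I : Finset (Tor M)} {r ρ : ℕ} {z : Tor M} (h : LipAt I r z)
    (x : ℤ × ℤ) (hx : zd x 0 + ρ ≤ r) : LipAt I ρ (z + prj M x) := by
  obtain ⟨S, ν, a, b, c⟩ := h
  refine ⟨{v | x + v ∈ S}, ν, a, fun u hu v hv => ?_, fun v hv => ?_⟩
  · have := b _ hu v hv
    rwa [add_assoc] at this
  · rw [add_assoc, ← G.prj_add]
    refine c _ ?_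
    simp only [zd, Prod.fst_add, Prod.snd_add, Prod.fst_zero, Prod.snd_zero, sub_zero] at *
    omega

theorem bdL_of (h : BdP) : BdL := fun N => by
  obtain ⟨Q, hQ, h⟩ := h N
  refine ⟨Q, hQ, fun ε hε => (h ε hε).imp fun L₀ h L hL M _ R B r J h1 h2 =>
    h L hL M R ∅ B r J ⟨h2, by simp, fun y ρ hρ _ => ?_⟩⟩
  obtain ⟨S, ν, a, b, c⟩ := h1 y
  exact ⟨S, ν, a, b, fun v hv => c v (hv.trans hρ)⟩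

end Vale.Agent.P144L
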