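import Vale.Agent.P144U.Free.Lat
import Vale.Agent.P144U.Stmt
import Vale.Agent.P144D.I.Defs
import Vale.Agent.P144D.I.N1.Hopf

/-!
Universality in domains whose boundary is Lipschitz with a constant less than one: definitions and the
statements of the blocks.
-/

namespace Vale.Agent.P144L

open Finset Matrix Vale.Agent.P144Z

/-! ### Geometry -/

/-- The cone of opening a right angle around `ν`. -/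
def Cn (ν : ℂ) (c : ℤ × ℤ) : Prop := √2 / 2 * len c ≤ ht ν c

/-- The deep part of the cone. -/
def Dp (ν : ℂ) (c : ℤ × ℤ) : Prop := √2 / 2 * len c + 100 ≤ ht ν c

/-- Within distance `r` of each point the set lies above a graph. -/
def LipZ (κ : ℝ) (Λ : Finset (ℤ × ℤ)) (r : ℕ) : Prop := ∀ z : ℤ × ℤ,
  ∃ (S : Set (ℤ × ℤ)) (ν : ℂ), ‖ν‖ = 1 ∧ Epi S ν κ ∧ ∀ v : ℤ × ℤ, zd v 0 ≤ r → (z + v ∈ Λ ↔ v ∈ S)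

/-- The same on the torus. -/
def LipK {M : ℕ} (κ : ℝ) (I : Finset (Tor M)) (r : ℕ) : Prop := ∀ z : Tor M,
  ∃ (S : Set (ℤ × ℤ)) (ν : ℂ), ‖ν‖ = 1 ∧ Epi S ν κ ∧
    ∀ v : ℤ × ℤ, zd v 0 ≤ r → (z + prj M v ∈ I ↔ v ∈ S)

/-- The case of slope one. -/
def LipT {M : ℕ} (I : Finset (Tor M)) (r : ℕ) : Prop := LipK (√2 / 2) I r

/-- An outer face at the boundary. -/
def Bq {M : ℕ} (I : Finset (Tor M)) (y : Tor M) : Prop := y ∉ I ∧ NearB I 1 y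

/-- At most `m` points of `Z` in each square of radius `s`. -/
def MuT {M : ℕ} (Z : Finset (Tor M)) (s m : ℕ) : Prop :=
  ∀ x, (Z.filter fun y => tdist y x ≤ s).card ≤ m

/-- The same in the plane lattice. -/
def MuZ (Z : Finset (ℤ × ℤ)) (s m : ℕ) : Prop := ∀ x, (Z.filter fun y => zd y x ≤ s).card ≤ m

/-- A set of edges that grows along the cone. -/
structure Mn (pr : ℤ × ℤ → Fin 4 → Prop) (ν : ℂ) : Prop where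
  nrm : ‖ν‖ = 1
  symm : ∀ v a, pr (v + st4 a) (a + 2) ↔ pr v a
  up : ∀ v a c, Cn ν c → pr v a → pr (v + c) a

/-- No edge below `y`, all edges above `y`. -/
structure Bc (pr : ℤ × ℤ → Fin 4 → Prop) (ν : ℂ) (y : ℤ × ℤ) : Prop where
  lo : ∀ c a, Dp ν c → ¬ pr (y - c) a
  hi : ∀ c a, Dp ν c → pr (y + c) a

/-- The edges between inner sites. -/
def prO (out : ℤ × ℤ → Prop) (v : ℤ × ℤ) (a : Fin 4) : Prop := ¬ out v ∧ ¬ out (v + st4 a)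

/-- The outer sites decrease along the cone. -/
structure Ou (out : ℤ × ℤ → Prop) (ν : ℂ) : Prop where
  nrm : ‖ν‖ = 1
  up : ∀ v c, Cn ν c → out (v + c) → out v

/-- An outer site at the boundary. -/
def Bp (out : ℤ × ℤ → Prop) (y : ℤ × ℤ) : Prop := out y ∧ ∃ x, zd x y ≤ 24 ∧ ¬ out x

/-- The model of a piece of the boundary. -/
structure Md (pr : ℤ × ℤ → Fin 4 → Prop) (out : ℤ × ℤ → Prop) (ν : ℂ) : Prop where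
  mn : Mn pr ν
  ou : Ou out ν
  rem : ∀ v a, ¬ pr v a → out (v - cn (a - 1)) ∧ out (v - cn a)
  lo : ∀ x c a, out x → Dp ν c → ¬ pr (x - c) a

/-! ### Barriers -/

open Classical in
/-- The Laplacian along the edges `pr`, with a boundary term of strength `θ`. -/
noncomputable def lapG (θ : ℝ) (pr : ℤ × ℤ → Fin 4 → Prop) (f : ℤ × ℤ → ℝ) (v : ℤ × ℤ) : ℝ :=
  ∑ a, if pr v a then f (v + st4 a) - f v else -θ * f v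

/-- A monotone barrier for the square of radius `ρ`. -/
structure IsBar (θ : ℝ) (pr : ℤ × ℤ → Fin 4 → Prop) (ν : ℂ) (ρ : ℕ) (ω : ℤ × ℤ → ℝ) : Prop where
  rng : ∀ x, 0 ≤ ω x ∧ ω x ≤ 1
  mono : ∀ x c, 9 / 10 * len c ≤ ht ν c → ω x ≤ ω (x + c)
  harm : ∀ x, zd x 0 ≤ ρ → lapG θ pr ω x = 0
  cmp : ∀ (f : ℤ × ℤ → ℝ) (S : ℝ), 0 ≤ S → (∀ x, zd x 0 ≤ 1000 * ρ → f x ≤ S) →
    (∀ x, zd x 0 + 1 ≤ 1000 * ρ → 0 < f x → 0 ≤ lapG θ pr f x) → ∀ x, zd x 0 ≤ ρ → f x ≤ S * ω x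

/-- `h` vanishes on the outer sites and is harmonic on the inner sites of a square. -/
structure Har (out : ℤ × ℤ → Prop) (y : ℤ × ℤ) (ρ : ℕ) (h : ℤ × ℤ → ℝ) : Prop where
  zero : ∀ x, zd x y ≤ ρ → out x → h x = 0
  harm : ∀ x, zd x y + 1 ≤ ρ → ¬ out x → ∑ a, (h (x + st4 a) - h x) = 0

/-- A nonnegative monotone function that is harmonic near `y`. -/
structure Pos (out : ℤ × ℤ → Prop) (ν : ℂ) (y : ℤ × ℤ) (ρ : ℕ) (ω : ℤ × ℤ → ℝ) : Prop where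
  har : Har out y ρ ω
  nn : ∀ x, 0 ≤ ω x
  mono : ∀ x c, 9 / 10 * len c ≤ ht ν c → ω x ≤ ω (x + c)

/-- The square of radius `d` around `x` consists of inner sites. -/
def In (out : ℤ × ℤ → Prop) (d : ℕ) (x : ℤ × ℤ) : Prop := ∀ v, zd v x ≤ d → ¬ out v

/-! ### Changes of scale -/

section

variable {M : ℕ} [NeZero M]

/-- The size of the homogeneous solutions. -/
def HomSz (A : Gauge M) (y : Tor M) (s ρ : ℕ) (Ω : ℝ) : Prop :=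
  ∀ φ, Hom A y ρ φ → l2sq (ball y s) φ * ρ ≤ Ω * s * l2sq (ball y ρ) φ

/-- The distance of the homogeneous solutions to a line. -/
def HomR (A : Gauge M) (y : Tor M) (s ρ : ℕ) (Ω : ℝ) : Prop :=
  ∃ u, Hom A y ρ u ∧ ∀ φ, Hom A y ρ φ → ∃ t : ℝ,
    l2sq (ball y s) (φ - t • u) * ρ ≤ Ω * s * l2sq (ball y ρ) φ

/-- The size of all fields. -/
def InSz (A : Gauge M) (y : Tor M) (s ρ : ℕ) (Ω : ℝ) : Prop :=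
  ∀ w, l2sq (ball y s) w * ρ ≤ Ω * s * hsq A ρ (ball y ρ) w

end

/-! ### The blocks: geometry -/

/-- The discretisation. -/
def RawL : Prop := ∀ K < (1 : ℝ), ∃ κ : ℝ, κ < √2 / 2 ∧ ∀ D : Set ℂ, IsLip K D →
  ∃ T > (0 : ℝ), ∃ ρ > (0 : ℝ), ∀ a > (0 : ℝ),
    (∀ x, x ∈ P144.disc D a ↔ (⟨a * x.1, a * x.2⟩ : ℂ) ∈ D) ∧
    (∀ x ∈ P144.disc D a, a * zd x 0 ≤ T) ∧
      ∀ r : ℕ, 1 ≤ r → a * r ≤ ρ → LipZ κ (P144.disc D a) r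

/-- From the plane to the torus. -/
def TorL : Prop := ∀ (κ : ℝ) (Λ : Finset (ℤ × ℤ)) (r T M : ℕ) [NeZero M], LipZ κ Λ r →
  (∀ v ∈ Λ, zd v 0 ≤ T) → 4 * (T + r) ≤ M → LipK κ (Λ.image (prj M)) r

/-- The boundary is rough in the sense of `Rgh`. -/
def RghL : Prop := ∀ κ : ℝ, κ < √2 / 2 → ∃ N Q : ℕ, 1 ≤ Q ∧ ∀ (M : ℕ) [NeZero M]
  (I : Finset (Tor M)) (r : ℕ), LipK κ I r → 4 * r ≤ M → Q ≤ r → Rgh I N (r / Q)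

/-- Deep points. -/
def DeepL : Prop := ∃ C Q : ℕ, 1 ≤ Q ∧ ∀ (Λ : Finset (ℤ × ℤ)) (r : ℕ), LipZ (√2 / 2) Λ r →
  Q ≤ r → DeepOK Λ C (r / Q)

/-- The cones at a boundary site. -/
def ConL : Prop := ∀ pr out ν, Md pr out ν → Mn (prO out) ν ∧
  ∀ y, Bp out y → Bc pr ν y ∧ Bc (prO out) ν y

/-- The model seen from a face. -/
def ModL : Prop := ∀ (M : ℕ) [NeZero M] (R : Reg M) (r : ℕ) (b : Tor M), LipT R.In r →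
  4 * r ≤ M → ∃ pr out ν, Md pr out ν ∧
    (∀ v, zd v 0 + 2 ≤ r → (∀ a, R.pr b v a ↔ pr v a) ∧ (R.out b v ↔ out v)) ∧
    ∀ v, zd v 0 + 2 ≤ r → Bq R.In (b + prj M (if R.fr then -v else v)) → Bp out v

/-- The boundary is one-dimensional. -/
def CntL : Prop := ∃ C : ℕ, ∀ (M : ℕ) [NeZero M] (I : Finset (Tor M)) (r : ℕ), LipT I r →
  4 * r ≤ M → ∀ (z : Tor M) (ρ s m : ℕ) (Z : Finset (Tor M)), 1 ≤ s → ρ + 2 ≤ r →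
    (∀ y ∈ Z, Bq I y ∧ tdist y z ≤ ρ) → MuT Z s m → Z.card ≤ C * m * (ρ / s + 1)

/-- Nets. -/
def NetL : Prop := ∀ n : ℕ, ∃ m : ℕ, ∀ (M : ℕ) [NeZero M] (P : Finset (Tor M)) (s : ℕ), 1 ≤ s →
  ∃ Z ⊆ P, (∀ x ∈ P, ∃ y ∈ Z, tdist x y ≤ s) ∧ MuT Z (n * s) m

/-! ### The blocks: potential theory -/

/-- Barriers exist. -/
def BarL : Prop := ∀ θ : ℝ, 3 / 4 ≤ θ → θ ≤ 1 → ∀ pr ν, Mn pr ν → Bc pr ν 0 → ∀ ρ : ℕ, 100 ≤ ρ →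
  ∃ ω, IsBar θ pr ν ρ ω

/-- The values of a barrier along the boundary are summable. -/
def CarL : Prop := ∃ C : ℕ, ∀ θ : ℝ, 3 / 4 ≤ θ → θ ≤ 1 → ∀ pr ν (ρ : ℕ) ω, Mn pr ν →
  IsBar θ pr ν ρ ω → ∀ (s m : ℕ) (Z : Finset (ℤ × ℤ)) (f : ℤ × ℤ → ℝ), 1 ≤ s → C * s ≤ ρ →
    (∀ y ∈ Z, Bc pr ν y ∧ 2 * zd y 0 ≤ ρ ∧ ∃ x, zd x y ≤ s ∧ f y ≤ ω x) → MuZ Z s m →
      ∑ y ∈ Z, f y ≤ C * m

/-- The gradient of a harmonic function. -/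
def GrdL : Prop := ∃ C : ℝ, 1 ≤ C ∧ ∀ (f : ℤ × ℤ → ℝ) (x : ℤ × ℤ) (ρ : ℕ) (S : ℝ), 1 ≤ ρ →
  (∀ v, zd v x ≤ 2 * ρ → ∑ a, (f (v + st4 a) - f v) = 0) →
  (∀ v, zd v x ≤ 2 * ρ + 1 → |f v| ≤ S) → ∀ v v', zd v x ≤ ρ → zd v' x ≤ ρ →
    |f v - f v'| * ρ ≤ C * S * zd v v'

/-- Harnack chains between deep points. -/
def ChnL : Prop := ∃ Q : ℕ, 1 ≤ Q ∧ ∀ n : ℕ, 1 ≤ n → ∃ c > (0 : ℝ), ∀ out ν, Ou out ν →
  ∀ (y x x' : ℤ × ℤ) (d : ℕ) (f : ℤ × ℤ → ℝ) (A : ℝ), 100 ≤ d → 0 ≤ A → zd x y ≤ n * d →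
    zd x' y ≤ n * d → In out d x → In out d x' →
    (∀ v, zd v y ≤ Q * (n * d) → ¬ out v → 0 ≤ f v ∧ SupH f v) →
    (∀ v, 10 * zd v x ≤ d → A ≤ f v) → c * A ≤ f x'

/-- Doubling: the supremum near the boundary is comparable with the values at deep points. -/
def DblL : Prop := ∃ Q : ℕ, 1 ≤ Q ∧ ∀ n : ℕ, 1 ≤ n → ∃ c > (0 : ℝ), ∀ out ν, Ou out ν →
  ∀ (y x x' : ℤ × ℤ) (d ρ : ℕ) ω, 100 ≤ d → Q * (n * d) ≤ ρ → Pos out ν y ρ ω → Bp out y →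
    zd x y ≤ n * d → zd x' y ≤ n * d → In out d x' → c * ω x ≤ ω x'

/-- The boundary Harnack principle. -/
def BhpL : Prop := ∀ η > (0 : ℝ), ∃ K s₀ : ℕ, ∀ out ν, Ou out ν → ∀ (y : ℤ × ℤ) (s : ℕ) ω h
  (S W : ℝ), s₀ ≤ s → Bp out y → Pos out ν y (K * s) ω → Har out y (K * s) h → 0 ≤ S →
    (∀ v, zd v y ≤ K * s → |h v| ≤ S * ω v) → (∀ v, zd v y ≤ s → ω v ≤ W) →
      ∃ lam : ℝ, |lam| ≤ S ∧ ∀ v, zd v y ≤ s → |h v - lam * ω v| ≤ η * S * W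

/-- A deep point where the slope is large. -/
def SlpL : Prop := ∃ C : ℕ, 1 ≤ C ∧ ∀ out ν, Ou out ν → ∀ (y : ℤ × ℤ) (s m : ℕ) ω, 1 ≤ m →
  C * m ≤ s → C * C ≤ s → Bp out y → Pos out ν y (C * s) ω → ∃ c, zd c y ≤ C * s ∧
    In out (s / C) c ∧ ∀ v, zd v y ≤ 3 * s →
      ω v * m ≤ C * s * (|ω (c + m • cn 1) - ω c| + |ω (c + m • cn 3) - ω c|)

/-- A pair is close to a harmonic function. -/
def AppL : Prop := ∃ C β : ℝ, 1 ≤ C ∧ 0 < β ∧ ∀ pr out ν, Md pr out ν → ∀ (ρ d : ℕ) u w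
  (S μ : ℝ), IsPair (2 * ρ) u w pr out → 1 ≤ d → d ≤ ρ → 0 ≤ μ →
    (∀ v, zd v 0 ≤ 2 * ρ → |u v| ≤ S ∧ |w v| ≤ S) →
    (∀ v, zd v 0 ≤ ρ → In out d v → u v - w v ≤ μ) → ∃ h, Har out 0 ρ h ∧
      ∀ v, zd v 0 ≤ ρ → |h v| ≤ S ∧ |u v - h v| ≤ μ + C * S * ((d : ℝ) / ρ) ^ β

/-! ### The blocks: fields -/

/-- The sizes of the homogeneous solutions along the boundary are summable. -/
def SzL : Prop := ∀ N : ℕ, ∃ Q C : ℕ, 1 ≤ Q ∧ ∀ (M : ℕ) [NeZero M] (R : Reg M) (B : Gauge M)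
  (r : ℕ), IsSign B → LipT R.In r → Rgh R.In N r → 4 * r ≤ M →
  ∀ (b : Tor M) (s ρ m : ℕ) (Z : Finset (Tor M)),
    Bq R.In b → 1 ≤ s → s ≤ ρ → Q * (Q * ρ) ≤ r → Flat B b (2 * (Q * ρ)) →
    (∀ y ∈ Z, Bq R.In y ∧ tdist y b ≤ ρ) → MuT Z s m → ∃ Ω : Tor M → ℝ,
      (∀ y ∈ Z, 0 ≤ Ω y ∧ HomSz (R.pw * B) y s (Q * ρ) (Ω y)) ∧ ∑ y ∈ Z, Ω y ≤ C * m

/-- Rank one on average. -/
def RkL : Prop := ∀ N : ℕ, ∃ Q : ℕ, 1 ≤ Q ∧ ∀ η > (0 : ℝ), ∃ K s₀ : ℕ, 1 ≤ K ∧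
  ∀ (M : ℕ) [NeZero M] (R : Reg M) (B : Gauge M) (r : ℕ), IsSign B → LipT R.In r →
  Rgh R.In N r → 4 * r ≤ M →
  ∀ (b : Tor M) (s m : ℕ) (Z : Finset (Tor M)), Bq R.In b → s₀ ≤ s → Q * (Q * (K * s)) ≤ r →
    Flat B b (2 * (Q * (K * s))) → (∀ y ∈ Z, Bq R.In y ∧ tdist y b ≤ K * s) → MuT Z s m →
    ∃ Ω : Tor M → ℝ, (∀ y ∈ Z, 0 ≤ Ω y ∧ HomR (R.pw * B) y s (Q * (K * s)) (Ω y)) ∧
      ∑ y ∈ Z, Ω y ≤ η * m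

/-- From the homogeneous solutions to all fields. -/
def TelL : Prop := ∀ c β : ℝ, 1 ≤ c → 0 < β → β ≤ 1 / 2 → ∃ C : ℝ, 1 ≤ C ∧ ∀ (M : ℕ) [NeZero M]
  (A : Gauge M) (y : Tor M) (ρ : ℕ), HomDecH A y 8 ρ c β → Solv A y 8 ρ c →
    (∀ s : ℕ, 8 ≤ s → s ≤ ρ → ∀ w,
      l2sq (ball y s) (Dm A *ᵥ w) * (ρ : ℝ) ^ 3 ≤ C * s * hsq A ρ (ball y ρ) w) ∧
    ∀ (s n : ℕ) (Ω : ℕ → ℝ), 8 ≤ s → s ≤ ρ → ρ / 2 ^ n < s → (∀ k, 0 ≤ Ω k) →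
      (∀ k, s ≤ ρ / 2 ^ k → HomSz A y s (ρ / 2 ^ k) (Ω k)) →
        InSz A y s ρ (C * (∑ k ∈ range n, Ω k / 3 ^ k + ((s : ℝ) / ρ) ^ 2))

/-- The sizes of all fields along the boundary are summable. -/
def SzG : Prop := ∀ N : ℕ, ∃ Q C : ℕ, 1 ≤ Q ∧ ∀ (M : ℕ) [NeZero M] (R : Reg M) (B : Gauge M)
  (r : ℕ), LipT R.In r → Rgh R.In N r → Str R.pw B r → 4 * r ≤ M →
  ∀ (z : Tor M) (s ρ m : ℕ) (Z : Finset (Tor M)),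
    8 ≤ s → s ≤ ρ → Q * ρ ≤ r → (∀ y ∈ Z, Bq R.In y ∧ tdist y z ≤ 10 * ρ) → MuT Z s m →
    ∃ Ω : Tor M → ℝ, (∀ y ∈ Z, 0 ≤ Ω y ∧ InSz (R.pw * B) y s ρ (Ω y)) ∧ ∑ y ∈ Z, Ω y ≤ C * m

/-- The boundary estimates. -/
def BdL : Prop := ∀ N : ℕ, ∃ Q : ℕ, 1 ≤ Q ∧ ∀ ε > (0 : ℝ), ∃ L₀ : ℕ, ∀ L ≥ L₀,
  ∀ (M : ℕ) [NeZero M] (R : Reg M) (B : Gauge M) (r J : ℕ), LipT R.In r → Rgh R.In N r →
    Str R.pw B r → 4 * r ≤ M → 1 ≤ J → Q * sc L J ≤ r → BndW (R.pw * B) L J ε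

end Vale.Agent.P144L
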